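import Vale.Agent.P273.D14.Glue

/-!
Functionals on the strata algebra that are antisymmetric in many legs: Pixton's relations in degree
`d` all come from the boundary. For `(g, n) = (2, 14)`, `d = 9` and two groups of seven legs this
shows that completeness of Pixton's relations would force an exact sequence that is known not to be
exact.
-/

noncomputable section
namespace Vale.Agent.Results.P273.AntisymGluing

open Vale.Agent.P273.Q Sum
open scoped Classical

/-- The sum of the `m` smallest natural numbers that are congruent to `0` or `1` modulo `3`. -/
def al (m : ℕ) : ℕ := ∑ i ∈ Finset.range m, (3 * (i / 2) + i % 2)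

/-- `s` is antisymmetric under the transposition of any two legs of the same colour. -/
def Anti {N C : Type} (c : N → C) (s : Fn N) : Prop :=
  ∀ i j, i ≠ j → c i = c j →
    ∀ V E a f, s V E a (fun y => f (y.map id (Equiv.swap i j))) = - s V E a f

/-- The restriction of the functional `s` to one vertex of a decorated graph: insert a decorated
graph with leg set `L`, genus `γ` and degree `e` into a larger graph with leg set `N`, in which `R`
is the set of the other vertices, with decorations `r`, and `T` the set of the other edges; a
half-edge of `T` and a leg in `N` either take the place of a leg `x : L` of the inserted graph or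
are attached to some vertex in `R`, with some psi exponent. -/
def res {N L R T : Type} (γ e : ℕ) (s : Fn N) (r : R → ℕ × Multiset ℕ)
    (u : (T × Bool) ⊕ N → L ⊕ R × ℕ) : Fn L :=
  fun V E a f =>
    let w := fun y => (u y).elim (fun x => (f (inr x)).map inl id) (Prod.map inr id)
    if Valid a f γ e then
      s (V ⊕ R) (E ⊕ T) (Sum.elim a r) (Sum.elim (fun y => y.1.elim
        (fun e => (f (inl (e, y.2))).map inl id) fun t => w (inl (t, y.2))) fun i => w (inr i))
    else 0

/-- All restrictions of `s` to the vertices of decorated graphs with at least one further edge have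
the property `T`. -/
def BRes (T : ℕ → ℕ → ∀ L, Fn L → Prop) {N : Type} (s : Fn N) : Prop :=
  ∀ (γ e : ℕ) (M R T' : Type) (r : R → ℕ × Multiset ℕ) (u : (T' × Bool) ⊕ N → M ⊕ R × ℕ),
    Finite M → Finite R → Finite T' → Nonempty T' → (∀ x, ∃! y, u y = inl x) →
    T γ e M (res γ e s r u)

/-- (1) If `s` is antisymmetric in each colour class of legs and `3d ≤ g + ∑ al (class sizes)`, and
the restrictions of `s` to all vertices of graphs with a further edge satisfy Pixton's relations,
then `s` satisfies all of Pixton's relations. (2) The case `(2, 14)`, `d = 9`, two classes of seven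
legs, for a family `T` of functionals: if Pixton's relations hold on `T` and are complete in
degree 9 for `(2, 14)`, then a functional that is antisymmetric in the two classes and whose
restrictions to the boundary are in `T` is itself in `T`. -/
theorem result :
    (∀ (g d : ℕ) (N C : Type) (c : N → C) (s : Fn N), Finite N → Anti c s →
      3 * d ≤ g + ∑ᶠ k, al (Nat.card {i // c i = k}) → Tr g d s →
      BRes (fun γ e _ t => Pix γ e t) s → Pix g d s) ∧
    ∀ T : ℕ → ℕ → ∀ L, Fn L → Prop, (∀ g d L s, T g d L s → Pix g d s) →
      (∀ s, Pix 2 9 s → T 2 9 (Fin 2 × Fin 7) s) →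
      ∀ s : Fn (Fin 2 × Fin 7), Anti Prod.fst s → Tr 2 9 s → BRes T s →
        T 2 9 (Fin 2 × Fin 7) s := by
  have key : ∀ (g d : ℕ) (N C : Type) (c : N → C) (s : Fn N), Finite N → Anti c s →
      3 * d ≤ g + ∑ᶠ k, al (Nat.card {i // c i = k}) → Tr g d s →
      BRes (fun γ e _ t => Pix γ e t) s → Pix g d s := by
    intro g d N C c s hN hanti hd htr hres
    exact Vale.Agent.P273.D14.pfree g d N C c s hanti hd
      (Vale.Agent.P273.D14.bpix_of_res htr hres)
  refine ⟨key, ?_⟩
  intro T hT hc s hanti htr hres
  refine hc s (key 2 9 _ _ Prod.fst s inferInstance hanti ?_ htr ?_)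
  · have h1 : ∀ k : Fin 2, Nat.card {i : Fin 2 × Fin 7 // i.1 = k} = 7 := by
      intro k
      rw [Nat.card_eq_fintype_card, Fintype.card_subtype]
      revert k
      decide
    rw [finsum_eq_sum_of_fintype]
    simp only [h1]
    decide
  · intro γ e M R T' r u h1 h2 h3 h4 h5
    exact hT _ _ _ _ (hres γ e M R T' r u h1 h2 h3 h4 h5)

end Vale.Agent.Results.P273.AntisymGluing
end
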