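import Vale.Agent.P273.D14.H741.Final5
import Vale.Agent.P273.D14.H462.Last
import Vale.Agent.P273.D14.H387.Plug8

/-!
Pixton's relations are not complete in cohomology for `(g, n) = (2, 14)`: an explicit element of
degree 9 of the strata algebra has intersection number zero with all decorated graphs of degree 8,
but it is not a combination of Pixton's relations. The 14 legs are `(i, b)`, with `i : Fin 7` and
`b : Bool`; the element is the antisymmetrization (in the legs `(i, true)` and in the legs
`(i, false)`) of a combination of five theta graphs `th p q σ`; its pairing with a functional is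
`onX`.
-/

noncomputable section
namespace Vale.Agent.Results.P273.PixtonIncomplete

open Vale.Agent.P273.Z

/-- The theta graphs are valid of genus 2 and degree 9; their combination has intersection number
zero with all decorated graphs of degree 8; some functional that satisfies all of Pixton's
relations does not vanish at it. -/
theorem result :
    (∀ p q σ, p ≤ q → q ≤ 6 → Valid (fun _ => (0, 0)) (fun y => (th p q σ y, 0)) 2 9) ∧
    (∀ (V E : Type) (a : V → ℕ × Multiset ℕ) (f : (E × Bool) ⊕ (Fin 7 × Bool) → V × ℕ),
      Valid a f 2 8 → (∀ v, 0 ∉ (a v).2) → onX (fun h => pairZ h a f) = 0) ∧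
    ∃ s : Fn (Fin 7 × Bool), Pix 2 9 s ∧
      onX (fun h => s _ _ (fun _ => (0, 0)) fun y => (h y, 0)) ≠ 0 :=
  final5 (Vale.Agent.P273.D14.H462.pside'
    fun _ _ _ _ _ _ _ h1 h2 h3 _ _ h4 => Vale.Agent.P273.D14.H387.nice2_ph
      Vale.Agent.P273.D14.H462.ff_inv Vale.Agent.P273.D14.H462.ff_br h1 h2 h3 h4)

end Vale.Agent.Results.P273.PixtonIncomplete
end
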